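import Mathlib

/-!
# P273, periods: the linear system at one node (helper598)

Data near a point `p₀` : vanishing period `c`, constant `kap` of the neck, regular half periods `pj`.
The solution of `Re (a · π_j) + C = ξ_j` is `S0 ξ + x S1` with `x` of size `1 / M`.
-/

open Set Metric Filter Complex
open scoped Topology Real

namespace Vale.Agent.P273.H598.Sol

noncomputable section

/-- `a · c` -/
def dot (v : ℂ × ℂ × ℝ) (c : ℂ × ℂ) : ℂ := v.1 * c.1 + v.2.1 * c.2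

lemma dot_add (v w : ℂ × ℂ × ℝ) (c : ℂ × ℂ) : dot (v + w) c = dot v c + dot w c := by
  simp only [dot, Prod.fst_add, Prod.snd_add]
  ring

lemma dot_smul (t : ℝ) (v : ℂ × ℂ × ℝ) (c : ℂ × ℂ) : dot (t • v) c = t * dot v c := by
  simp only [dot, Prod.smul_fst, Prod.smul_snd, real_smul]
  ring

/-- the data -/
structure Dat (Q : Type*) where
  i0 : Fin 6
  i1 : Fin 6
  c : Q → ℂ × ℂ
  kap : Q → ℂ × ℂ
  pj : Q → Fin 6 → ℂ × ℂ

/-- a family of continuous linear maps on a finite-dimensional space is smooth if its values are -/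
lemma contDiffAt_clm_of_apply {Q E F : Type*} [NormedAddCommGroup Q] [NormedSpace ℝ Q]
    [NormedAddCommGroup E] [NormedSpace ℝ E] [FiniteDimensional ℝ E] [NormedAddCommGroup F]
    [NormedSpace ℝ F] {n : WithTop ℕ∞} {f : Q → E →L[ℝ] F} {p : Q}
    (h : ∀ y, ContDiffAt ℝ n (fun x => f x y) p) : ContDiffAt ℝ n f p := by
  let d := Module.finrank ℝ E
  have hd : d = Module.finrank ℝ (Fin d → ℝ) := (Module.finrank_fin_fun ℝ).symm
  let e₁ := ContinuousLinearEquiv.ofFinrankEq hd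
  let e₂ := (e₁.arrowCongr (1 : F ≃L[ℝ] F)).trans (ContinuousLinearEquiv.piRing (Fin d))
  rw [← Function.id_comp f, ← e₂.symm_comp_self]
  exact e₂.symm.contDiff.contDiffAt.comp p (contDiffAt_pi.2 fun i => h _)

/-- bounds of a function and of its derivative near a point -/
lemma exists_bound {Q F : Type*} [NormedAddCommGroup Q] [NormedSpace ℝ Q] [NormedAddCommGroup F]
    [NormedSpace ℝ F] {f : Q → F} {p : Q} (h : ContDiffAt ℝ 2 f p) :
    ∃ A : ℝ, ∀ᶠ x in 𝓝 p, DifferentiableAt ℝ f x ∧ ‖f x‖ ≤ A ∧ ‖fderiv ℝ f x‖ ≤ A := by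
  have h1 : ContinuousAt f p := h.continuousAt
  have h2 : ContinuousAt (fderiv ℝ f) p := (h.fderiv_right (m := 1) (by norm_num)).continuousAt
  have h3 : ∀ᶠ x in 𝓝 p, DifferentiableAt ℝ f x := by
    have := h.eventually (by simp)
    filter_upwards [this] with x hx
    exact hx.differentiableAt (by norm_num)
  have h4 : ∀ᶠ x in 𝓝 p, ‖f x‖ < ‖f p‖ + 1 := h1.norm.eventually (gt_mem_nhds (by linarith))
  have h5 : ∀ᶠ x in 𝓝 p, ‖fderiv ℝ f x‖ < ‖fderiv ℝ f p‖ + 1 :=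
    h2.norm.eventually (gt_mem_nhds (by linarith))
  refine ⟨max (‖f p‖ + 1) (‖fderiv ℝ f p‖ + 1), ?_⟩
  filter_upwards [h3, h4, h5] with x k3 k4 k5
  exact ⟨k3, k4.le.trans (le_max_left _ _), k5.le.trans (le_max_right _ _)⟩

variable {Q : Type*} [NormedAddCommGroup Q] [NormedSpace ℝ Q] (D : Dat Q)

namespace Dat

/-- the regular block -/
def T (p : Q) : (ℂ × ℂ × ℝ) →L[ℝ] ℂ × (Fin 6 → ℝ) :=
  LinearMap.toContinuousLinearMap
    { toFun := fun v => (dot v (D.c p), fun j =>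
        if j = D.i0 ∨ j = D.i1 then 0 else (dot v (D.pj p j)).re + v.2.2)
      map_add' := fun v w => by
        refine Prod.ext (dot_add _ _ _) (funext fun j => ?_)
        show (if j = D.i0 ∨ j = D.i1 then (0 : ℝ) else (dot (v + w) (D.pj p j)).re + (v + w).2.2) =
          (if j = D.i0 ∨ j = D.i1 then (0 : ℝ) else (dot v (D.pj p j)).re + v.2.2) +
          (if j = D.i0 ∨ j = D.i1 then (0 : ℝ) else (dot w (D.pj p j)).re + w.2.2)
        split_ifs
        · rw [add_zero]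
        · rw [dot_add, add_re, Prod.snd_add, Prod.snd_add]
          ring
      map_smul' := fun t v => by
        refine Prod.ext ?_ (funext fun j => ?_)
        · show dot (t • v) (D.c p) = t • dot v (D.c p)
          rw [dot_smul, real_smul]
        · show (if j = D.i0 ∨ j = D.i1 then (0 : ℝ) else (dot (t • v) (D.pj p j)).re + (t • v).2.2) =
            t • (if j = D.i0 ∨ j = D.i1 then (0 : ℝ) else (dot v (D.pj p j)).re + v.2.2)
          split_ifs
          · rw [smul_zero]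
          · rw [dot_smul, re_ofReal_mul, Prod.smul_snd, Prod.smul_snd, smul_eq_mul, smul_eq_mul]
            ring }

omit [NormedAddCommGroup Q] [NormedSpace ℝ Q] in
lemma T_apply (p : Q) (v : ℂ × ℂ × ℝ) : D.T p v = (dot v (D.c p), fun j =>
    if j = D.i0 ∨ j = D.i1 then 0 else (dot v (D.pj p j)).re + v.2.2) := rfl

/-- smoothness of the data near `p₀` and the regular block is injective at `p₀` -/
structure Ok (p₀ : Q) : Prop where
  ne : D.i0 ≠ D.i1
  c : ContDiffAt ℝ 2 D.c p₀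
  kap : ContDiffAt ℝ 2 D.kap p₀
  pj : ∀ j, j ≠ D.i0 → j ≠ D.i1 → ContDiffAt ℝ 2 (fun p => D.pj p j) p₀
  inj : ∀ v : ℂ × ℂ × ℝ, dot v (D.c p₀) = 0 →
    (∀ j, j ≠ D.i0 → j ≠ D.i1 → (dot v (D.pj p₀ j)).re + v.2.2 = 0) → v = 0

variable {D} {p₀ : Q}

lemma contDiffAt_T (h : D.Ok p₀) : ContDiffAt ℝ 2 D.T p₀ := by
  have key : ∀ v : ℂ × ℂ × ℝ, ContDiffAt ℝ 2 (fun p => D.T p v) p₀ := by
    intro v
    have hdot : ∀ f : Q → ℂ × ℂ, ContDiffAt ℝ 2 f p₀ → ContDiffAt ℝ 2 (fun p => dot v (f p)) p₀ := by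
      intro f hf
      exact (contDiffAt_const.mul (contDiffAt_fst.comp p₀ hf)).add
        (contDiffAt_const.mul (contDiffAt_snd.comp p₀ hf))
    refine ContDiffAt.prodMk (hdot _ h.c) (contDiffAt_pi.2 fun j => ?_)
    by_cases hj : j = D.i0 ∨ j = D.i1
    · simp only [hj, if_true]
      exact contDiffAt_const
    · simp only [hj, if_false]
      rw [not_or] at hj
      exact (reCLM.contDiff.contDiffAt.comp p₀ (hdot _ (h.pj j hj.1 hj.2))).add contDiffAt_const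
  exact contDiffAt_clm_of_apply key

lemma T_ker (h : ∀ v : ℂ × ℂ × ℝ, dot v (D.c p₀) = 0 →
    (∀ j, j ≠ D.i0 → j ≠ D.i1 → (dot v (D.pj p₀ j)).re + v.2.2 = 0) → v = 0) :
    LinearMap.ker (D.T p₀ : (ℂ × ℂ × ℝ) →ₗ[ℝ] ℂ × (Fin 6 → ℝ)) = ⊥ := by
  rw [LinearMap.ker_eq_bot']
  intro v hv
  have hv' : D.T p₀ v = 0 := hv
  rw [D.T_apply] at hv'
  have h1 := congrArg Prod.fst hv'
  have h2 := congrArg Prod.snd hv'
  refine h v h1 fun j hj0 hj1 => ?_
  have h3 := congrFun h2 j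
  simp only [hj0, hj1, or_self, if_false] at h3
  exact h3

/-- a left inverse at `p₀` -/
def Nl (h : D.Ok p₀) : ℂ × (Fin 6 → ℝ) →L[ℝ] (ℂ × ℂ × ℝ) :=
  LinearMap.toContinuousLinearMap
    (LinearMap.exists_leftInverse_of_injective _ (T_ker h.inj)).choose

lemma Nl_comp (h : D.Ok p₀) : (Nl h).comp (D.T p₀) = ContinuousLinearMap.id ℝ _ := by
  have := (LinearMap.exists_leftInverse_of_injective _ (T_ker h.inj)).choose_spec
  refine ContinuousLinearMap.ext fun v => ?_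
  exact LinearMap.congr_fun this v

/-- the left inverse -/
def L (h : D.Ok p₀) (p : Q) : ℂ × (Fin 6 → ℝ) →L[ℝ] (ℂ × ℂ × ℝ) :=
  ((Nl h).comp (D.T p)).inverse.comp (Nl h)

lemma contDiffAt_NT (h : D.Ok p₀) : ContDiffAt ℝ 2 (fun p => (Nl h).comp (D.T p)) p₀ :=
  contDiffAt_const.clm_comp (contDiffAt_T h)

lemma contDiffAt_L (h : D.Ok p₀) : ContDiffAt ℝ 2 (L h) p₀ := by
  have h1 := contDiffAt_map_inverse (𝕜 := ℝ) (n := 2) (ContinuousLinearEquiv.refl ℝ (ℂ × ℂ × ℝ))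
  have e : ((ContinuousLinearEquiv.refl ℝ (ℂ × ℂ × ℝ) : _ ≃L[ℝ] _) :
      (ℂ × ℂ × ℝ) →L[ℝ] (ℂ × ℂ × ℝ)) = (Nl h).comp (D.T p₀) := by
    rw [Nl_comp h]
    rfl
  rw [e] at h1
  have h2 : ContDiffAt ℝ 2 (fun p => ((Nl h).comp (D.T p)).inverse) p₀ :=
    ContDiffAt.comp (f := fun p => (Nl h).comp (D.T p)) p₀ h1 (contDiffAt_NT h)
  have h3 : ContDiffAt ℝ 2 (fun _ : Q => Nl h) p₀ := contDiffAt_const
  exact h2.clm_comp h3

lemma eventually_L (h : D.Ok p₀) : ∀ᶠ p in 𝓝 p₀, ∀ v, L h p (D.T p v) = v := by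
  have h1 := ContinuousLinearEquiv.nhds (ContinuousLinearEquiv.refl ℝ (ℂ × ℂ × ℝ))
  have e : ((ContinuousLinearEquiv.refl ℝ (ℂ × ℂ × ℝ) : _ ≃L[ℝ] _) :
      (ℂ × ℂ × ℝ) →L[ℝ] (ℂ × ℂ × ℝ)) = (Nl h).comp (D.T p₀) := by
    rw [Nl_comp h]
    rfl
  rw [e] at h1
  filter_upwards [(contDiffAt_NT h).continuousAt h1] with p hp v
  obtain ⟨e, he⟩ := hp
  have he' : (e : (ℂ × ℂ × ℝ) →L[ℝ] (ℂ × ℂ × ℝ)) = (Nl h).comp (D.T p) := he
  unfold L
  rw [← he', ContinuousLinearMap.inverse_equiv]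
  have : (Nl h) (D.T p v) = e v := by
    have := DFunLike.congr_fun he' v
    exact this.symm
  show e.symm ((Nl h) (D.T p v)) = v
  rw [this, ContinuousLinearEquiv.symm_apply_apply]

variable (D) in
/-- right hand side of the regular block -/
def rhs (ξ : Fin 6 → ℝ) : ℂ × (Fin 6 → ℝ) :=
  ((((ξ D.i1 - ξ D.i0) / π : ℝ) : ℂ) * I, fun j => if j = D.i0 ∨ j = D.i1 then 0 else ξ j)

/-- the part without slope -/
def S0 (h : D.Ok p₀) (p : Q) (ξ : Fin 6 → ℝ) : ℂ × ℂ × ℝ := L h p (D.rhs ξ)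

/-- the unit slope -/
def S1 (h : D.Ok p₀) (p : Q) : ℂ × ℂ × ℝ := L h p (1, 0)

def ga (h : D.Ok p₀) (p : Q) (ξ : Fin 6 → ℝ) : ℝ :=
  (dot (S0 h p ξ) (D.kap p)).re + (S0 h p ξ).2.2

def mu (h : D.Ok p₀) (p : Q) : ℝ := (dot (S1 h p) (D.kap p)).re + (S1 h p).2.2

/-- the slope -/
def xs (h : D.Ok p₀) (p : Q) (M φ : ℝ) (ξ : Fin 6 → ℝ) : ℝ :=
  (ga h p ξ - ξ D.i0 - (ξ D.i1 - ξ D.i0) / π * φ) / (M - mu h p)

/-- the solution -/
def vs (h : D.Ok p₀) (p : Q) (M φ : ℝ) (ξ : Fin 6 → ℝ) : ℂ × ℂ × ℝ :=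
  S0 h p ξ + xs h p M φ ξ • S1 h p

/-- **the formula for the solution** -/
theorem eq_vs (h : D.Ok p₀) {p : Q} (hp : ∀ v, L h p (D.T p v) = v) {M φ : ℝ}
    (hM : M - mu h p ≠ 0) {ξ : Fin 6 → ℝ} {v : ℂ × ℂ × ℝ}
    (hj : ∀ j, j ≠ D.i0 → j ≠ D.i1 → (dot v (D.pj p j)).re + v.2.2 = ξ j)
    (h0 : (dot v (D.kap p) + (-(M : ℂ) + φ * I) * dot v (D.c p)).re + v.2.2 = ξ D.i0)
    (h1 : (dot v (D.kap p) + (-(M : ℂ) + φ * I - π * I) * dot v (D.c p)).re + v.2.2 = ξ D.i1) :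
    v = vs h p M φ ξ ∧
      dot v (D.c p) = xs h p M φ ξ + (((ξ D.i1 - ξ D.i0) / π : ℝ) : ℂ) * I := by
  set w := dot v (D.c p) with hw
  have hπ : (π : ℝ) ≠ 0 := Real.pi_ne_zero
  have him : w.im = (ξ D.i1 - ξ D.i0) / π := by
    simp only [add_re, mul_re, sub_re, neg_re, ofReal_re, I_re, I_im, ofReal_im, add_im, sub_im,
      neg_im, mul_im] at h0 h1
    rw [eq_div_iff hπ]
    linarith
  have hwe : w = (w.re : ℂ) + (((ξ D.i1 - ξ D.i0) / π : ℝ) : ℂ) * I := by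
    rw [← him, re_add_im]
  have hT : D.T p v = D.rhs ξ + w.re • ((1 : ℂ), (0 : Fin 6 → ℝ)) := by
    rw [D.T_apply]
    refine Prod.ext ?_ (funext fun j => ?_)
    · show w = (((ξ D.i1 - ξ D.i0) / π : ℝ) : ℂ) * I + w.re • (1 : ℂ)
      rw [real_smul, mul_one, add_comm]
      exact hwe
    · show (if j = D.i0 ∨ j = D.i1 then (0 : ℝ) else (dot v (D.pj p j)).re + v.2.2) =
        (if j = D.i0 ∨ j = D.i1 then (0 : ℝ) else ξ j) + w.re • (0 : ℝ)
      split_ifs with hc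
      · simp
      · rw [not_or] at hc
        rw [hj j hc.1 hc.2]
        simp
  have hv : v = S0 h p ξ + w.re • S1 h p := by
    have := hp v
    rw [hT, map_add, map_smul] at this
    exact this.symm
  have hx : w.re = xs h p M φ ξ := by
    unfold xs
    rw [eq_div_iff hM]
    have e1 : (dot v (D.kap p)).re + v.2.2 = ga h p ξ + w.re * mu h p := by
      unfold ga mu
      conv_lhs => rw [hv]
      rw [dot_add, dot_smul, add_re, re_ofReal_mul]
      simp only [Prod.snd_add, Prod.smul_snd, smul_eq_mul]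
      ring
    simp only [add_re, mul_re, neg_re, ofReal_re, I_re, I_im, ofReal_im, add_im,
      neg_im, mul_im] at h0
    rw [him] at h0
    linarith
  refine ⟨?_, ?_⟩
  · unfold vs
    rw [← hx]
    exact hv
  · rw [← hx]
    exact hwe

/-! ### bounds -/

variable (D) in
/-- the right hand side as a linear map -/
def rhsL : (Fin 6 → ℝ) →L[ℝ] ℂ × (Fin 6 → ℝ) :=
  LinearMap.toContinuousLinearMap
    { toFun := fun ξ => D.rhs ξ
      map_add' := fun ξ η => by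
        refine Prod.ext ?_ (funext fun j => ?_)
        · show ((((ξ + η) D.i1 - (ξ + η) D.i0) / π : ℝ) : ℂ) * I =
            (((ξ D.i1 - ξ D.i0) / π : ℝ) : ℂ) * I + (((η D.i1 - η D.i0) / π : ℝ) : ℂ) * I
          simp only [Pi.add_apply]
          push_cast
          ring
        · show (if j = D.i0 ∨ j = D.i1 then (0 : ℝ) else (ξ + η) j) =
            (if j = D.i0 ∨ j = D.i1 then (0 : ℝ) else ξ j) +
              (if j = D.i0 ∨ j = D.i1 then (0 : ℝ) else η j)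
          split_ifs
          · rw [add_zero]
          · rfl
      map_smul' := fun t ξ => by
        refine Prod.ext ?_ (funext fun j => ?_)
        · show ((((t • ξ) D.i1 - (t • ξ) D.i0) / π : ℝ) : ℂ) * I =
            t • ((((ξ D.i1 - ξ D.i0) / π : ℝ) : ℂ) * I)
          simp only [Pi.smul_apply, smul_eq_mul, real_smul]
          push_cast
          ring
        · show (if j = D.i0 ∨ j = D.i1 then (0 : ℝ) else (t • ξ) j) =
            t • (if j = D.i0 ∨ j = D.i1 then (0 : ℝ) else ξ j)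
          split_ifs
          · rw [smul_zero]
          · rfl }

/-- `S0` as a family of linear maps -/
def G0 (h : D.Ok p₀) (p : Q) : (Fin 6 → ℝ) →L[ℝ] (ℂ × ℂ × ℝ) := (L h p).comp D.rhsL

lemma G0_apply (h : D.Ok p₀) (p : Q) (ξ : Fin 6 → ℝ) : G0 h p ξ = S0 h p ξ := rfl

/-- `ga` as a family of linear maps -/
def gaL (h : D.Ok p₀) (p : Q) : (Fin 6 → ℝ) →L[ℝ] ℝ :=
  LinearMap.toContinuousLinearMap
    { toFun := fun ξ => ga h p ξ
      map_add' := fun ξ η => by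
        have e : S0 h p (ξ + η) = S0 h p ξ + S0 h p η := (G0 h p).map_add ξ η
        unfold ga
        rw [e, dot_add, add_re, Prod.snd_add, Prod.snd_add]
        ring
      map_smul' := fun t ξ => by
        have e : S0 h p (t • ξ) = t • S0 h p ξ := (G0 h p).map_smul t ξ
        unfold ga
        rw [e, dot_smul, re_ofReal_mul, Prod.smul_snd, Prod.smul_snd]
        simp only [smul_eq_mul, RingHom.id_apply]
        ring }

lemma gaL_apply (h : D.Ok p₀) (p : Q) (ξ : Fin 6 → ℝ) : gaL h p ξ = ga h p ξ := rfl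

lemma contDiffAt_G0 (h : D.Ok p₀) : ContDiffAt ℝ 2 (G0 h) p₀ :=
  (contDiffAt_L h).clm_comp contDiffAt_const

lemma contDiffAt_S1 (h : D.Ok p₀) : ContDiffAt ℝ 2 (S1 h) p₀ :=
  (contDiffAt_L h).clm_apply contDiffAt_const

lemma contDiffAt_dot {f : Q → ℂ × ℂ × ℝ} {g : Q → ℂ × ℂ} (hf : ContDiffAt ℝ 2 f p₀)
    (hg : ContDiffAt ℝ 2 g p₀) : ContDiffAt ℝ 2 (fun p => (dot (f p) (g p)).re + (f p).2.2) p₀ := by
  have f1 : ContDiffAt ℝ 2 (fun p => (f p).1) p₀ := contDiffAt_fst.comp p₀ hf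
  have f2 : ContDiffAt ℝ 2 (fun p => (f p).2) p₀ := contDiffAt_snd.comp p₀ hf
  have f3 : ContDiffAt ℝ 2 (fun p => (f p).2.1) p₀ := contDiffAt_fst.comp p₀ f2
  have f4 : ContDiffAt ℝ 2 (fun p => (f p).2.2) p₀ := contDiffAt_snd.comp p₀ f2
  have g1 : ContDiffAt ℝ 2 (fun p => (g p).1) p₀ := contDiffAt_fst.comp p₀ hg
  have g2 : ContDiffAt ℝ 2 (fun p => (g p).2) p₀ := contDiffAt_snd.comp p₀ hg
  have h1 : ContDiffAt ℝ 2 (fun p => dot (f p) (g p)) p₀ := (f1.mul g1).add (f3.mul g2)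
  exact (reCLM.contDiff.contDiffAt.comp p₀ h1).add f4

lemma contDiffAt_mu (h : D.Ok p₀) : ContDiffAt ℝ 2 (mu h) p₀ :=
  contDiffAt_dot (contDiffAt_S1 h) h.kap

lemma contDiffAt_gaL (h : D.Ok p₀) : ContDiffAt ℝ 2 (gaL h) p₀ := by
  refine contDiffAt_clm_of_apply fun ξ => ?_
  exact contDiffAt_dot ((contDiffAt_G0 h).clm_apply contDiffAt_const) h.kap

/-- all bounds at a point -/
structure Bds (h : D.Ok p₀) (A : ℝ) (p : Q) : Prop where
  A1 : 1 ≤ A
  left : ∀ v, L h p (D.T p v) = v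
  G : DifferentiableAt ℝ (G0 h) p ∧ ‖G0 h p‖ ≤ A ∧ ‖fderiv ℝ (G0 h) p‖ ≤ A
  g : DifferentiableAt ℝ (gaL h) p ∧ ‖gaL h p‖ ≤ A ∧ ‖fderiv ℝ (gaL h) p‖ ≤ A
  m : DifferentiableAt ℝ (mu h) p ∧ ‖mu h p‖ ≤ A ∧ ‖fderiv ℝ (mu h) p‖ ≤ A
  S : DifferentiableAt ℝ (S1 h) p ∧ ‖S1 h p‖ ≤ A ∧ ‖fderiv ℝ (S1 h) p‖ ≤ A

theorem exists_Bds (h : D.Ok p₀) : ∃ A, ∀ᶠ p in 𝓝 p₀, Bds h A p := by
  obtain ⟨A1, h1⟩ := exists_bound (contDiffAt_G0 h)
  obtain ⟨A2, h2⟩ := exists_bound (contDiffAt_gaL h)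
  obtain ⟨A3, h3⟩ := exists_bound (contDiffAt_mu h)
  obtain ⟨A4, h4⟩ := exists_bound (contDiffAt_S1 h)
  set A := max 1 (max (max A1 A2) (max A3 A4)) with hA
  have a1 : A1 ≤ A := (le_max_left _ _).trans ((le_max_left _ _).trans (le_max_right _ _))
  have a2 : A2 ≤ A := (le_max_right _ _).trans ((le_max_left _ _).trans (le_max_right _ _))
  have a3 : A3 ≤ A := (le_max_left _ _).trans ((le_max_right _ _).trans (le_max_right _ _))
  have a4 : A4 ≤ A := (le_max_right _ _).trans ((le_max_right _ _).trans (le_max_right _ _))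
  refine ⟨A, ?_⟩
  filter_upwards [h1, h2, h3, h4, eventually_L h] with p k1 k2 k3 k4 k5
  exact ⟨le_max_left _ _, k5, ⟨k1.1, k1.2.1.trans a1, k1.2.2.trans a1⟩,
    ⟨k2.1, k2.2.1.trans a2, k2.2.2.trans a2⟩, ⟨k3.1, k3.2.1.trans a3, k3.2.2.trans a3⟩,
    ⟨k4.1, k4.2.1.trans a4, k4.2.2.trans a4⟩⟩

/-- size of a class: `σ` bounds the regular part, `s` the value on the pair, `β` the period -/
structure Sz (ξ : Fin 6 → ℝ) (h : D.Ok p₀) (A σ s β : ℝ) (p : Q) : Prop where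
  G : ‖G0 h p ξ‖ ≤ A * σ
  G' : ∀ w, ‖(fderiv ℝ (G0 h) p w) ξ‖ ≤ A * σ * ‖w‖
  g : |gaL h p ξ| ≤ A * σ
  g' : ∀ w, |(fderiv ℝ (gaL h) p w) ξ| ≤ A * σ * ‖w‖
  s : |ξ D.i0| ≤ s
  b : |ξ D.i1 - ξ D.i0| ≤ β

lemma Bds.sz {h : D.Ok p₀} {A : ℝ} {p : Q} (hb : Bds h A p) (ξ : Fin 6 → ℝ) :
    Sz ξ h A ‖ξ‖ ‖ξ‖ |ξ D.i1 - ξ D.i0| p where
  G := (ContinuousLinearMap.le_opNorm _ _).trans
    (mul_le_mul_of_nonneg_right hb.G.2.1 (norm_nonneg _))
  G' w := by
    refine (ContinuousLinearMap.le_opNorm _ _).trans ?_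
    have h1 := (ContinuousLinearMap.le_opNorm (fderiv ℝ (G0 h) p) w).trans
      (mul_le_mul_of_nonneg_right hb.G.2.2 (norm_nonneg _))
    have h2 := mul_le_mul_of_nonneg_right h1 (norm_nonneg ξ)
    linarith
  g := (ContinuousLinearMap.le_opNorm (gaL h p) ξ).trans
    (mul_le_mul_of_nonneg_right hb.g.2.1 (norm_nonneg _))
  g' w := by
    refine (ContinuousLinearMap.le_opNorm (fderiv ℝ (gaL h) p w) ξ).trans ?_
    have h1 := (ContinuousLinearMap.le_opNorm (fderiv ℝ (gaL h) p) w).trans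
      (mul_le_mul_of_nonneg_right hb.g.2.2 (norm_nonneg _))
    have h2 := mul_le_mul_of_nonneg_right h1 (norm_nonneg ξ)
    linarith
  s := norm_le_pi_norm ξ D.i0
  b := le_rfl

/-- the class of the pair: `ξ = t` on the pair, `0` elsewhere -/
lemma Bds.sz_alc {h : D.Ok p₀} {A : ℝ} {p : Q} (hb : Bds h A p) {ξ : Fin 6 → ℝ}
    (h0 : ξ D.i0 = 1) (h1 : ξ D.i1 = 1) (h2 : ∀ j, j ≠ D.i0 → j ≠ D.i1 → ξ j = 0) :
    Sz ξ h A 0 1 0 p := by
  have hr : D.rhsL ξ = 0 := by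
    show D.rhs ξ = 0
    refine Prod.ext ?_ (funext fun j => ?_)
    · show (((ξ D.i1 - ξ D.i0) / π : ℝ) : ℂ) * I = 0
      rw [h0, h1]
      simp
    · show (if j = D.i0 ∨ j = D.i1 then (0 : ℝ) else ξ j) = 0
      split_ifs with hc
      · rfl
      · rw [not_or] at hc
        exact h2 j hc.1 hc.2
  have hG : ∀ p, G0 h p ξ = 0 := by
    intro p
    show L h p (D.rhsL ξ) = 0
    rw [hr, map_zero]
  have hg : ∀ p, gaL h p ξ = 0 := by
    intro p
    show ga h p ξ = 0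
    have e : S0 h p ξ = 0 := hG p
    unfold ga
    rw [e]
    simp [dot]
  have hG' : ∀ w, (fderiv ℝ (G0 h) p w) ξ = 0 := by
    intro w
    have h3 : HasFDerivAt (fun p => G0 h p ξ) ((fderiv ℝ (G0 h) p).flip ξ) p := by
      have := hb.G.1.hasFDerivAt.clm_apply (hasFDerivAt_const ξ p)
      refine this.congr_fderiv ?_
      ext w
      · simp
      · simp
      · simp
    have h4 : (fun p => G0 h p ξ) = fun _ => 0 := funext hG
    rw [h4] at h3
    have h5 := h3.unique (hasFDerivAt_const (0 : ℂ × ℂ × ℝ) p)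
    exact DFunLike.congr_fun h5 w
  have hg' : ∀ w, (fderiv ℝ (gaL h) p w) ξ = 0 := by
    intro w
    have h3 : HasFDerivAt (fun p => gaL h p ξ) ((fderiv ℝ (gaL h) p).flip ξ) p := by
      have := hb.g.1.hasFDerivAt.clm_apply (hasFDerivAt_const ξ p)
      refine this.congr_fderiv ?_
      ext w
      simp
    have h4 : (fun p => gaL h p ξ) = fun _ => 0 := funext hg
    rw [h4] at h3
    have h5 := h3.unique (hasFDerivAt_const (0 : ℝ) p)
    exact DFunLike.congr_fun h5 w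
  refine ⟨?_, ?_, ?_, ?_, ?_, ?_⟩
  · rw [hG]; simp
  · intro w; rw [hG']; simp
  · rw [hg]; simp
  · intro w; rw [hg']; simp
  · rw [h0]; simp
  · rw [h0, h1]; simp

section family

variable {E : Type*} [NormedAddCommGroup E] [NormedSpace ℝ E] {p : E → Q} {M φ : E → ℝ}
  {p' : E →L[ℝ] Q} {M' φ' : E →L[ℝ] ℝ} {t : E} {h : D.Ok p₀} {A σ s β : ℝ} {ξ : Fin 6 → ℝ}

/-- the slope is small -/
theorem xs_le (hb : Bds h A (p t)) (hs : Sz ξ h A σ s β (p t)) (hM : 2 * A ≤ M t)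
    (hφ : |φ t| ≤ 6) : |xs h (p t) (M t) (φ t) ξ| ≤ 2 * (A * σ + s + 2 * β) / M t := by
  have hA := hb.A1
  have hM0 : 0 < M t := by linarith
  have hm := abs_le.1 (show |mu h (p t)| ≤ A from hb.m.2.1)
  have hden : M t / 2 ≤ M t - mu h (p t) := by linarith [hm.2]
  have hden0 : 0 < M t - mu h (p t) := by linarith
  have hβ : 0 ≤ β := (abs_nonneg _).trans hs.b
  have hnum : |ga h (p t) ξ - ξ D.i0 - (ξ D.i1 - ξ D.i0) / π * φ t| ≤ A * σ + s + 2 * β := by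
    have h1 : |ga h (p t) ξ| ≤ A * σ := hs.g
    have h2 := hs.s
    have h3 : |(ξ D.i1 - ξ D.i0) / π * φ t| ≤ 2 * β := by
      rw [abs_mul, abs_div, abs_of_pos Real.pi_pos, div_mul_eq_mul_div,
        div_le_iff₀ Real.pi_pos]
      have h4 : |ξ D.i1 - ξ D.i0| * |φ t| ≤ β * 6 :=
        mul_le_mul hs.b hφ (abs_nonneg _) hβ
      nlinarith [Real.pi_gt_three]
    have h5 := abs_sub (ga h (p t) ξ - ξ D.i0) ((ξ D.i1 - ξ D.i0) / π * φ t)
    have h6 := abs_sub (ga h (p t) ξ) (ξ D.i0)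
    linarith
  have hn0 : 0 ≤ A * σ + s + 2 * β := (abs_nonneg _).trans hnum
  unfold xs
  rw [abs_div, abs_of_pos hden0, div_le_div_iff₀ hden0 hM0]
  nlinarith

/-- the derivative of the slope -/
theorem hasFDerivAt_xs (hb : Bds h A (p t)) (hs : Sz ξ h A σ s β (p t)) (hM : 2 * A ≤ M t)
    (hφ : |φ t| ≤ 6) (dp : HasFDerivAt p p' t) (dM : HasFDerivAt M M' t)
    (dφ : HasFDerivAt φ φ' t) :
    ∃ x' : E →L[ℝ] ℝ, HasFDerivAt (fun t => xs h (p t) (M t) (φ t) ξ) x' t ∧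
      ∀ v, |x' v| ≤ 2 * (A * σ * ‖p' v‖ + β * |φ' v|) / M t +
        4 * (A * σ + s + 2 * β) * (|M' v| + A * ‖p' v‖) / (M t) ^ 2 := by
  have hA := hb.A1
  have hM0 : 0 < M t := by linarith
  have hm := abs_le.1 (show |mu h (p t)| ≤ A from hb.m.2.1)
  have hden : M t / 2 ≤ M t - mu h (p t) := by linarith [hm.2]
  have hden0 : 0 < M t - mu h (p t) := by linarith
  have hβ : 0 ≤ β := (abs_nonneg _).trans hs.b
  -- numerator
  have dg : HasFDerivAt (fun t => ga h (p t) ξ)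
      (((fderiv ℝ (gaL h) (p t)).comp p').flip ξ) t := by
    have h1 : HasFDerivAt (fun t => gaL h (p t)) ((fderiv ℝ (gaL h) (p t)).comp p') t :=
      hb.g.1.hasFDerivAt.comp t dp
    have h2 := h1.clm_apply (hasFDerivAt_const ξ t)
    refine (h2.congr_fderiv ?_)
    ext w
    simp
  have dn := (dg.sub_const (ξ D.i0)).sub (dφ.const_mul ((ξ D.i1 - ξ D.i0) / π))
  -- denominator
  have dm : HasFDerivAt (fun t => M t - mu h (p t)) (M' - (fderiv ℝ (mu h) (p t)).comp p') t :=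
    dM.sub (hb.m.1.hasFDerivAt.comp t dp)
  have di := (hasDerivAt_inv hden0.ne').comp_hasFDerivAt t dm
  have dx := dn.mul di
  refine ⟨_, dx.congr_of_eventuallyEq (Eventually.of_forall fun t => ?_), fun v => ?_⟩
  · show xs h (p t) (M t) (φ t) ξ = _
    unfold xs
    rw [div_eq_mul_inv]
    rfl
  · set m := M t - mu h (p t) with hmdef
    have hxs := xs_le hb hs hM hφ
    have e : |xs h (p t) (M t) (φ t) ξ| = |ga h (p t) ξ - ξ D.i0 -
        (ξ D.i1 - ξ D.i0) / π * φ t| * m⁻¹ := by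
      unfold xs
      rw [abs_div, abs_of_pos hden0, div_eq_mul_inv]
    have hn : |ga h (p t) ξ - ξ D.i0 - (ξ D.i1 - ξ D.i0) / π * φ t| ≤ A * σ + s + 2 * β := by
      have h1 : |ga h (p t) ξ| ≤ A * σ := hs.g
      have h2 := hs.s
      have h3 : |(ξ D.i1 - ξ D.i0) / π * φ t| ≤ 2 * β := by
        rw [abs_mul, abs_div, abs_of_pos Real.pi_pos, div_mul_eq_mul_div,
          div_le_iff₀ Real.pi_pos]
        have h4 : |ξ D.i1 - ξ D.i0| * |φ t| ≤ β * 6 :=
          mul_le_mul hs.b hφ (abs_nonneg _) hβ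
        nlinarith [Real.pi_gt_three]
      have h5 := abs_sub (ga h (p t) ξ - ξ D.i0) ((ξ D.i1 - ξ D.i0) / π * φ t)
      have h6 := abs_sub (ga h (p t) ξ) (ξ D.i0)
      linarith
    set n := ga h (p t) ξ - ξ D.i0 - (ξ D.i1 - ξ D.i0) / π * φ t with hndef
    set n1 : ℝ := (fderiv ℝ (gaL h) (p t) (p' v)) ξ - (ξ D.i1 - ξ D.i0) / π * φ' v with hn1
    set m1 : ℝ := M' v - fderiv ℝ (mu h) (p t) (p' v) with hm1
    have hval : ∀ (a : ℝ), a = n * (-(m ^ 2)⁻¹ * m1) + m⁻¹ * n1 →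
        |a| ≤ 2 * (A * σ * ‖p' v‖ + β * |φ' v|) / M t +
        4 * (A * σ + s + 2 * β) * (|M' v| + A * ‖p' v‖) / (M t) ^ 2 := by
      rintro a rfl
      have b1 : |n1| ≤ A * σ * ‖p' v‖ + β * |φ' v| := by
        have h1 := hs.g' (p' v)
        have h2 : |(ξ D.i1 - ξ D.i0) / π * φ' v| ≤ β * |φ' v| := by
          rw [abs_mul, abs_div, abs_of_pos Real.pi_pos]
          refine mul_le_mul_of_nonneg_right ?_ (abs_nonneg _)
          rw [div_le_iff₀ Real.pi_pos]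
          have := hs.b
          nlinarith [Real.pi_gt_three]
        have h3 := abs_sub ((fderiv ℝ (gaL h) (p t) (p' v)) ξ) ((ξ D.i1 - ξ D.i0) / π * φ' v)
        linarith
      have b2 : |m1| ≤ |M' v| + A * ‖p' v‖ := by
        have h1 := (ContinuousLinearMap.le_opNorm (fderiv ℝ (mu h) (p t)) (p' v)).trans
          (mul_le_mul_of_nonneg_right hb.m.2.2 (norm_nonneg _))
        rw [Real.norm_eq_abs] at h1
        have h3 := abs_sub (M' v) (fderiv ℝ (mu h) (p t) (p' v))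
        linarith
      have c1 : m⁻¹ ≤ 2 / M t := by
        rw [inv_le_comm₀ hden0 (by positivity), inv_div]
        exact hden
      have c0 : 0 < m⁻¹ := inv_pos.2 hden0
      have c2 : (m ^ 2)⁻¹ ≤ 4 / (M t) ^ 2 := by
        rw [← inv_pow]
        have : (2 / M t) ^ 2 = 4 / (M t) ^ 2 := by
          rw [div_pow]; norm_num
        rw [← this]
        exact pow_le_pow_left₀ c0.le c1 2
      have c3 : 0 < (m ^ 2)⁻¹ := by positivity
      have d1 : |n * (-(m ^ 2)⁻¹ * m1)| ≤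
          4 * (A * σ + s + 2 * β) * (|M' v| + A * ‖p' v‖) / (M t) ^ 2 := by
        rw [abs_mul, abs_mul, abs_neg, abs_of_pos c3]
        have hn0 : 0 ≤ A * σ + s + 2 * β := (abs_nonneg _).trans hn
        calc |n| * ((m ^ 2)⁻¹ * |m1|) ≤ (A * σ + s + 2 * β) *
              (4 / (M t) ^ 2 * (|M' v| + A * ‖p' v‖)) :=
              mul_le_mul hn (mul_le_mul c2 b2 (abs_nonneg _) (by positivity))
                (by positivity) hn0
          _ = _ := by ring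
      have d2 : |m⁻¹ * n1| ≤ 2 * (A * σ * ‖p' v‖ + β * |φ' v|) / M t := by
        rw [abs_mul, abs_of_pos c0]
        calc m⁻¹ * |n1| ≤ 2 / M t * (A * σ * ‖p' v‖ + β * |φ' v|) :=
              mul_le_mul c1 b1 (abs_nonneg _) (by positivity)
          _ = _ := by ring
      have := abs_add_le (n * (-(m ^ 2)⁻¹ * m1)) (m⁻¹ * n1)
      linarith
    refine hval _ ?_
    simp [n1, m1, n, m]

/-- **the solution and its derivative** -/
theorem hasFDerivAt_vs (hb : Bds h A (p t)) (hs : Sz ξ h A σ s β (p t)) (hM : 2 * A ≤ M t)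
    (hφ : |φ t| ≤ 6) (dp : HasFDerivAt p p' t) (dM : HasFDerivAt M M' t)
    (dφ : HasFDerivAt φ φ' t) :
    ‖vs h (p t) (M t) (φ t) ξ‖ ≤ A * σ + A * (2 * (A * σ + s + 2 * β) / M t) ∧
    ∃ v' : E →L[ℝ] (ℂ × ℂ × ℝ), HasFDerivAt (fun t => vs h (p t) (M t) (φ t) ξ) v' t ∧
      ∀ v, ‖v' v‖ ≤ A * σ * ‖p' v‖ + A * (2 * (A * σ + s + 2 * β) / M t) * ‖p' v‖ +
        A * (2 * (A * σ * ‖p' v‖ + β * |φ' v|) / M t +
        4 * (A * σ + s + 2 * β) * (|M' v| + A * ‖p' v‖) / (M t) ^ 2) := by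
  have hA := hb.A1
  have hxs := xs_le hb hs hM hφ
  have hS := hb.S.2.1
  refine ⟨?_, ?_⟩
  · unfold vs
    refine (norm_add_le _ _).trans (add_le_add hs.G ?_)
    rw [norm_smul, Real.norm_eq_abs, mul_comm]
    exact mul_le_mul hS hxs (abs_nonneg _) (by linarith)
  · obtain ⟨x', dx, hx'⟩ := hasFDerivAt_xs hb hs hM hφ dp dM dφ
    have dG : HasFDerivAt (fun t => S0 h (p t) ξ)
        (((fderiv ℝ (G0 h) (p t)).comp p').flip ξ) t := by
      have h1 : HasFDerivAt (fun t => G0 h (p t)) ((fderiv ℝ (G0 h) (p t)).comp p') t :=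
        hb.G.1.hasFDerivAt.comp t dp
      have h2 := h1.clm_apply (hasFDerivAt_const ξ t)
      refine (h2.congr_fderiv ?_)
      ext w
      · simp
      · simp
      · simp
    have dS : HasFDerivAt (fun t => S1 h (p t)) ((fderiv ℝ (S1 h) (p t)).comp p') t :=
      hb.S.1.hasFDerivAt.comp t dp
    have dv := dG.add (dx.smul dS)
    refine ⟨_, dv, fun v => ?_⟩
    have e : ∀ w : ℂ × ℂ × ℝ, w = (fderiv ℝ (G0 h) (p t) (p' v)) ξ +
        (xs h (p t) (M t) (φ t) ξ • fderiv ℝ (S1 h) (p t) (p' v) + x' v • S1 h (p t)) →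
        ‖w‖ ≤ A * σ * ‖p' v‖ + A * (2 * (A * σ + s + 2 * β) / M t) * ‖p' v‖ +
        A * (2 * (A * σ * ‖p' v‖ + β * |φ' v|) / M t +
        4 * (A * σ + s + 2 * β) * (|M' v| + A * ‖p' v‖) / (M t) ^ 2) := by
      rintro w rfl
      have k1 := hs.G' (p' v)
      have k2 : ‖xs h (p t) (M t) (φ t) ξ • fderiv ℝ (S1 h) (p t) (p' v)‖ ≤
          A * (2 * (A * σ + s + 2 * β) / M t) * ‖p' v‖ := by
        rw [norm_smul, Real.norm_eq_abs]
        have h1 := (ContinuousLinearMap.le_opNorm (fderiv ℝ (S1 h) (p t)) (p' v)).trans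
          (mul_le_mul_of_nonneg_right hb.S.2.2 (norm_nonneg _))
        calc |xs h (p t) (M t) (φ t) ξ| * ‖fderiv ℝ (S1 h) (p t) (p' v)‖ ≤
            (2 * (A * σ + s + 2 * β) / M t) * (A * ‖p' v‖) :=
            mul_le_mul hxs h1 (norm_nonneg _) ((abs_nonneg _).trans hxs)
          _ = _ := by ring
      have k3 : ‖x' v • S1 h (p t)‖ ≤ A * (2 * (A * σ * ‖p' v‖ + β * |φ' v|) / M t +
          4 * (A * σ + s + 2 * β) * (|M' v| + A * ‖p' v‖) / (M t) ^ 2) := by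
        rw [norm_smul, Real.norm_eq_abs, mul_comm]
        exact mul_le_mul hS (hx' v) (abs_nonneg _) (by linarith)
      refine (norm_add_le _ _).trans ?_
      have := norm_add_le (xs h (p t) (M t) (φ t) ξ • fderiv ℝ (S1 h) (p t) (p' v))
        (x' v • S1 h (p t))
      linarith
    refine e _ ?_
    simp

end family

end Dat

end

end Vale.Agent.P273.H598.Sol
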