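import Vale.Agent.P273.H598.Node2
import Vale.Agent.P273.H598.Inst
import Vale.Agent.P273.H598.Sol
import Vale.Agent.P273.H857.All
import Vale.Agent.P273.H580.The
import Vale.Agent.P268.Hol

/-!
# P273, periods: the flat data near one node (helper598)

`DN i ρ` = the data of the linear system at the node `i` for the half periods of helper857; the
coefficients `fl ξ` of helper580 are the explicit solution `vs`.
-/

open Set Metric Filter Complex
open scoped Topology Real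

namespace Vale.Agent.P273.H598

open Vale.Agent.P273.H908 (rt Sl)
open Vale.Agent.P273.H857 (br Sb sq OK P lo piX C6)
open Vale.Agent.P273.H828 (pr XD)
open Vale.Agent.P273.H580 (AX cX fl pX XO)
open Vale.Agent.P273.H95 (IsCl)

noncomputable section

/-- **the input of the one node files, without hypotheses** -/
theorem potHyp : PotHyp :=
  PotHyp.of H857.stmHOLn H857.stmHOLRn H857.stmROOTn H857.stmFLIPRn H857.stmFLIPLn

/-- non-degeneracy of the regular block at the node -/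
def EReg : Prop := ∀ i : Fin 5, ∀ q ∈ XD i, ∀ v : ℂ × ℂ × ℝ, v.1 + v.2.1 * q i.castSucc = 0 →
  (∀ j, j ≠ i.castSucc → j ≠ i.succ → (v.1 * piX 0 j q + v.2.1 * piX 1 j q).re + v.2.2 = 0) →
  v = 0

/-- the data of the linear system at the node `i` -/
def DN (i : Fin 5) (ρ : ℝ) : Sol.Dat (ℂ × C6) where
  i0 := i.castSucc
  i1 := i.succ
  c p := (c0 (fun z => HH i 0 (p.2, z)) (5 * ρ) (p.1 ^ 2),
    c0 (fun z => HH i 1 (p.2, z)) (5 * ρ) (p.1 ^ 2))
  kap p := (kap i 0 ρ p, kap i 1 ρ p)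
  pj p j := (piX 0 j (bb i p), piX 1 j (bb i p))

/-- holomorphic functions of several variables are smooth in the real sense -/
lemma contDiffAt_real {E F : Type*} [NormedAddCommGroup E] [NormedSpace ℂ E]
    [FiniteDimensional ℂ E] [NormedAddCommGroup F] [NormedSpace ℂ F] [CompleteSpace F]
    [NormedSpace ℝ E] [IsScalarTower ℝ ℂ E] [NormedSpace ℝ F] [IsScalarTower ℝ ℂ F]
    {U : Set E} (hU : IsOpen U) {f : E → F} (hf : DifferentiableOn ℂ f U) {n : WithTop ℕ∞} {x : E}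
    (hx : x ∈ U) : ContDiffAt ℝ n f x :=
  ((P268.analyticOnNhd_of_differentiableOn hU hf x hx).contDiffAt).restrict_scalars ℝ

variable {i : Fin 5} {V : Set C6} {ρ : ℝ}

lemma NB.diff_c (h : NB i V ρ) (k : ℕ) :
    DifferentiableOn ℂ (fun p : ℂ × C6 => c0 (fun z => HH i k (p.2, z)) (5 * ρ) (p.1 ^ 2))
      (ball 0 (5 * ρ) ×ˢ V) := by
  have hρ := h.pos
  have hHd : DifferentiableOn ℂ (HH i k) (V ×ˢ ball (0 : ℂ) (6 * ρ)) :=
    (differentiableOn_HH k).mono h.gd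
  have h1 := differentiableOn_c0 h.op (by linarith : 0 < 5 * ρ) (by linarith : 5 * ρ < 6 * ρ) hHd
  refine DifferentiableOn.comp (f := fun p : ℂ × C6 => (p.1 ^ 2, p.2)) h1 ?_ ?_
  · exact Differentiable.differentiableOn (by fun_prop)
  · rintro ⟨d, q⟩ ⟨hd, hq⟩
    refine ⟨?_, hq⟩
    rw [mem_ball_zero_iff] at hd ⊢
    rw [norm_pow]
    exact pow_lt_pow_left₀ hd (norm_nonneg _) two_ne_zero

lemma NB.GG_ne (h : NB i V ρ) {q : C6} (hq : q ∈ V) : GG i q 0 ≠ 0 := by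
  have hρ := h.pos
  have h0 : ‖(0 : ℂ)‖ < 6 * ρ := by
    rw [norm_zero]
    linarith
  exact GG_ne_zero (p := (q, (0 : ℂ))) (h.mem_gd hq h0)

/-- **the data satisfy the conditions of `Sol`** -/
theorem DN_ok (hE : EReg) (h : NB2 i V ρ) {q : C6} (hq : q ∈ V) (hX : q ∈ XD i) :
    (DN i ρ).Ok (0, q) := by
  have hρ := h.pos
  have hc : ∀ k : ℕ, ContDiffAt ℝ 2
      (fun p : ℂ × C6 => c0 (fun z => HH i k (p.2, z)) (5 * ρ) (p.1 ^ 2)) (0, q) := fun k =>
    contDiffAt_real (isOpen_ball.prod h.op) (h.toNB.diff_c k)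
      ⟨mem_ball_self (by linarith), hq⟩
  have hk : ∀ k : ℕ, k ≤ 1 → ContDiffAt ℝ 2 (kap i k ρ) (0, q) := fun k hk =>
    contDiffAt_real (isOpen_ball.prod h.op) (h.toNB.diff_kap potHyp hk)
      ⟨mem_ball_self (by linarith), hq⟩
  have hp : ∀ j, j ≠ i.castSucc → j ≠ i.succ → ∀ k : ℕ, k ≤ 1 →
      ContDiffAt ℝ 2 (fun p : ℂ × C6 => piX k j (bb i p)) (0, q) := fun j h0 h6 k hk =>
    contDiffAt_real (isOpen_ball.prod h.op) (NB.diff_piX h potHyp hk h0 h6)
      ⟨mem_ball_self (by linarith), hq⟩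
  refine ⟨(succ_ne i).symm, (hc 0).prodMk (hc 1), (hk 0 (by norm_num)).prodMk (hk 1 le_rfl),
    fun j h0 h6 => (hp j h0 h6 0 (by norm_num)).prodMk (hp j h0 h6 1 le_rfl), fun v h1 h2 => ?_⟩
  have hG := h.toNB.GG_ne hq
  refine hE i q hX v ?_ fun j h0 h6 => ?_
  · have e : ∀ k : ℕ, c0 (fun z => HH i k (q, z)) (5 * ρ) ((0 : ℂ) ^ 2) =
        (q i.castSucc) ^ k / GG i q 0 := by
      intro k
      rw [zero_pow two_ne_zero, c0_zero (by linarith) (h.toNB.dcc k hq)]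
      simp [HH]
    have h3 : v.1 * c0 (fun z => HH i 0 (q, z)) (5 * ρ) ((0 : ℂ) ^ 2) +
        v.2.1 * c0 (fun z => HH i 1 (q, z)) (5 * ρ) ((0 : ℂ) ^ 2) = 0 := h1
    rw [e, e, pow_zero, pow_one, mul_one_div, mul_div_assoc', ← add_div, div_eq_zero_iff] at h3
    exact h3.resolve_right hG
  · have h3 : (v.1 * piX 0 j (bb i (0, q)) + v.2.1 * piX 1 j (bb i (0, q))).re + v.2.2 = 0 :=
      h2 j h0 h6
    rw [bb_d_zero hX.1] at h3
    exact h3

/-! ### the six equations -/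

lemma neg_mem_Sl {q : C6} {d : ℂ} (hb : bb i (d, q) ∈ XO) : -d ∈ Sl := by
  have h1 := hb i.castSucc i.succ Fin.castSucc_lt_succ
  rw [bb_zero, bb_one] at h1
  by_cases hr : d.re = 0
  · have h2 := h1 (by rw [sub_re, add_re, hr]; ring)
    rw [add_im, sub_im] at h2
    exact Or.inl (by rw [neg_im]; linarith)
  · exact Or.inr (by rw [neg_re]; exact neg_ne_zero.2 hr)

lemma lg_re {z : ℂ} : (lg z).re = Real.log ‖z‖ := by
  unfold lg
  rw [add_re, log_re, norm_mul, norm_neg, norm_I, one_mul]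
  simp

lemma lg_im_le (z : ℂ) : |(lg z).im| ≤ 6 := by
  unfold lg
  have h1 := Complex.abs_arg_le_pi (-I * z)
  have h2 : ((π / 2 : ℂ) * I).im = π / 2 := by
    have : ((π / 2 : ℂ) * I) = ((π / 2 : ℝ) : ℂ) * I := by push_cast; ring
    rw [this, im_ofReal_mul, I_im, mul_one]
  rw [add_im, log_im, h2]
  have h3 := Real.pi_lt_d2
  have h4 := abs_le.1 h1
  rw [abs_le]
  constructor <;> linarith [Real.pi_pos]

/-- **the flat data at the configurations near the node** -/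
theorem fl_eq (hE : EReg) (h : NB2 i V ρ) {q₀ : C6} (hq₀ : q₀ ∈ V) (hX : q₀ ∈ XD i) {q : C6}
    (hq : q ∈ V) {d : ℂ} (hd : ‖d‖ < ρ / 2) (hb : bb i (d, q) ∈ XO)
    (hL : ∀ v, Sol.Dat.L (DN_ok hE h hq₀ hX) (d, q) ((DN i ρ).T (d, q) v) = v)
    (hM : -Real.log ‖d‖ - Sol.Dat.mu (DN_ok hE h hq₀ hX) (d, q) ≠ 0) {ξ : Fin 6 → ℝ}
    (hξ : IsCl ξ) :
    fl ξ (bb i (d, q)) =
        Sol.Dat.vs (DN_ok hE h hq₀ hX) (d, q) (-Real.log ‖d‖) (lg (-d)).im ξ ∧
      Sol.dot (fl ξ (bb i (d, q))) ((DN i ρ).c (d, q)) =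
        Sol.Dat.xs (DN_ok hE h hq₀ hX) (d, q) (-Real.log ‖d‖) (lg (-d)).im ξ +
          (((ξ i.succ - ξ i.castSucc) / π : ℝ) : ℂ) * I := by
  have hdS := neg_mem_Sl hb
  have hval : ∀ j, (Sol.dot (fl ξ (bb i (d, q)))
      (piX 0 j (bb i (d, q)), piX 1 j (bb i (d, q)))).re + (fl ξ (bb i (d, q))).2.2 = ξ j :=
    fun j => H580.val_fl H580.theStms (H580.isCl_alt hξ) hb j
  have hlg : lg (-d) = -((-Real.log ‖d‖ : ℝ) : ℂ) + ((lg (-d)).im : ℝ) * I := by
    have h1 := re_add_im (lg (-d))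
    rw [lg_re, norm_neg] at h1
    rw [← h1]
    push_cast
    simp
  refine Sol.Dat.eq_vs (DN_ok hE h hq₀ hX) hL hM (fun j _ _ => hval j) ?_ ?_
  · rw [← hval ((DN i ρ).i0)]
    show _ = (Sol.dot (fl ξ (bb i (d, q)))
      (piX 0 i.castSucc (bb i (d, q)), piX 1 i.castSucc (bb i (d, q)))).re +
        (fl ξ (bb i (d, q))).2.2
    rw [NB.piX_zero h.toNB potHyp (by norm_num) hq hd hdS, NB.piX_zero h.toNB potHyp le_rfl hq hd hdS]
    congr 2
    rw [← hlg]
    simp only [Sol.dot, DN]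
    ring
  · rw [← hval ((DN i ρ).i1)]
    show _ = (Sol.dot (fl ξ (bb i (d, q)))
      (piX 0 i.succ (bb i (d, q)), piX 1 i.succ (bb i (d, q)))).re + (fl ξ (bb i (d, q))).2.2
    rw [NB.piX_one h.toNB potHyp (by norm_num) hq hd hdS, NB.piX_one h.toNB potHyp le_rfl hq hd hdS]
    congr 2
    rw [← hlg]
    simp only [Sol.dot, DN]
    ring

end

end Vale.Agent.P273.H598
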