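import Vale.Agent.P273.H598.Node3
import Vale.Agent.P273.H379.NodeE

/-!
# P273, periods: the flat data near one node, without hypotheses (helper598)
-/

open Set Metric Filter Complex
open scoped Topology Real

namespace Vale.Agent.P273.H598

open Vale.Agent.P273.H857 (piX C6)
open Vale.Agent.P273.H828 (XD)
open Vale.Agent.P273.H580 (fl XO)
open Vale.Agent.P273.H95 (IsCl)

noncomputable section

/-- **non-degeneracy at the node** -/
theorem eReg : EReg := fun _ _ hq _ h1 h2 => by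
  obtain ⟨k0, k1, k2⟩ := H379.node_nondeg hq h1 h2
  exact Prod.ext k0 (Prod.ext k1 k2)

variable {i : Fin 5} {V : Set C6} {ρ : ℝ}

/-- the data satisfy the conditions of `Sol` -/
theorem dn_ok (h : NB2 i V ρ) {q : C6} (hq : q ∈ V) (hX : q ∈ XD i) : (DN i ρ).Ok (0, q) :=
  DN_ok eReg h hq hX

/-- **the flat data near the node are the explicit solution** -/
theorem exists_node (i : Fin 5) {q₀ : C6} (hX : q₀ ∈ XD i) : ∃ (V : Set C6) (ρ A r : ℝ)
    (_ : NB2 i V ρ) (_ : q₀ ∈ V) (h : (DN i ρ).Ok (0, q₀)), 0 < r ∧ r ≤ ρ / 2 ∧ ball q₀ r ⊆ V ∧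
    (∀ d q, ‖d‖ < r → q ∈ ball q₀ r → Sol.Dat.Bds h A (d, q)) ∧
    ∀ d q, ‖d‖ < r → q ∈ ball q₀ r → bb i (d, q) ∈ XO → 2 * A ≤ -Real.log ‖d‖ →
      ∀ ξ, IsCl ξ → fl ξ (bb i (d, q)) =
        Sol.Dat.vs h (d, q) (-Real.log ‖d‖) (lg (-d)).im ξ ∧
      Sol.dot (fl ξ (bb i (d, q))) ((DN i ρ).c (d, q)) =
        Sol.Dat.xs h (d, q) (-Real.log ‖d‖) (lg (-d)).im ξ +
          (((ξ i.succ - ξ i.castSucc) / π : ℝ) : ℂ) * I := by
  obtain ⟨V, ρ, h, hqV⟩ := exists_NB2 hX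
  have hok := dn_ok h hqV hX
  obtain ⟨A, hA⟩ := Sol.Dat.exists_Bds hok
  obtain ⟨r, hr, hball⟩ := Metric.eventually_nhds_iff_ball.1 (hA.and
    ((isOpen_univ.prod h.op).mem_nhds (x := ((0 : ℂ), q₀)) ⟨mem_univ _, hqV⟩))
  have hρ := h.pos
  have hmem : ∀ (d : ℂ) (q : C6), ‖d‖ < min r (ρ / 2) → q ∈ ball q₀ (min r (ρ / 2)) →
      (d, q) ∈ ball ((0 : ℂ), q₀) r := by
    intro d q hd hq
    rw [mem_ball, Prod.dist_eq, max_lt_iff, dist_zero_right]
    exact ⟨lt_of_lt_of_le hd (min_le_left _ _), lt_of_lt_of_le (mem_ball.1 hq) (min_le_left _ _)⟩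
  refine ⟨V, ρ, A, min r (ρ / 2), h, hqV, hok, lt_min hr (by linarith), min_le_right _ _, ?_, ?_, ?_⟩
  · intro q hq
    have h0 : ‖(0 : ℂ)‖ < min r (ρ / 2) := by
      rw [norm_zero]
      exact lt_min hr (by linarith)
    exact (hball _ (hmem 0 q h0 hq)).2.2
  · intro d q hd hq
    exact (hball _ (hmem d q hd hq)).1
  · intro d q hd hq hb hM ξ hξ
    have h1 := hball _ (hmem d q hd hq)
    refine fl_eq eReg h hqV hX h1.2.2 (lt_of_lt_of_le hd (min_le_right _ _)) hb h1.1.left ?_ hξ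
    have hA1 := h1.1.A1
    have hm := abs_le.1 (show |Sol.Dat.mu hok (d, q)| ≤ A from h1.1.m.2.1)
    intro h0
    linarith [hm.2]

end

end Vale.Agent.P273.H598
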